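import Vale.Agent.P014Y.F.Sp.Tw
import Vale.Agent.P004F.Qx.Fr

/-! # P014Y, frame: the unramified points modulo a tower, at the prime three -/

set_option linter.all false

open scoped Classical
open WeierstrassCurve WeierstrassCurve.Affine P179W NumberField Polynomial

noncomputable section

namespace Vale.Agent.P014Y.F.Sp

open Vale.Agent.P014T.Lc Vale.Agent.P014T.Vc Vale.Agent.P014T.Sm Vale.Agent.P004F
open Vale.Agent.P014T.Gt (IsF Fq)
open Vale.Agent.P014U.Gt hiding units ex_it good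
open Vale.Agent.P004M.TE (Qb GQ Pt ga)
open Vale.Agent.P022E.GW (Ov Fb)
open Vale.Agent.P027M.S (Inert)
open Vale.Agent.P014 (act GlobalMinimal Pbar)
open Qx (Fk Ur)
open Qx.Fg (Vr)

theorem cyc {G : Type} [AddCommGroup G] {p : ℕ} {t : ℕ → G} (T : Tr p t) {m : ℕ} (z : t m ≠ 0)
    (rk : ∀ R S : G, p • R = 0 → p • S = 0 → S ≠ 0 → ∃ i : ℤ, R = i • S) (k : ℕ) (R : G)
    (e : p ^ k • R = 0) : ∃ (n : ℕ) (i : ℤ), R = i • t n := by
  obtain ⟨j, a, b⟩ : ∃ j, t j = 0 ∧ t (j + 1) ≠ 0 := by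
    by_contra! c
    exact z (Nat.rec T.1 c m)
  refine ⟨j + k, ?_⟩
  induction k generalizing R with
  | zero => exact ⟨0, by simpa using e⟩
  | succ k ih =>
    obtain ⟨i, c⟩ := ih (p • R) (by rw [← mul_smul, ← pow_succ, e])
    obtain ⟨i', d⟩ := rk (R - i • t (j + k + 1)) _ (by
      rw [nsmul_sub, c, smul_comm, T.2, sub_self]) ((T.2 j).trans a) b
    refine ⟨i + i' * p ^ k, ?_⟩
    rw [← T.pw (j + 1) k, add_right_comm j 1 k] at d
    rw [add_smul, mul_smul, ← Nat.cast_pow, natCast_zsmul, ← add_assoc, ← d, add_sub_cancel]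

section red

variable {κ : Type} [Field κ] {V : WeierstrassCurve κ} {q : ℕ}
  {F : V.toAffine.Point →+ V.toAffine.Point}

theorem four {a b c d : κ} (ha : a ^ 3 = a) (hb : b ^ 3 = b) (hc : c ^ 3 = c) (hd : d ^ 3 = d)
    (ab : a ≠ b) (ac : a ≠ c) (ad : a ≠ d) (bc : b ≠ c) (bd : b ≠ d) : c = d := by
  have k : ∀ {x : κ}, x ^ 3 = x → a ≠ x → a ^ 2 + a * x + x ^ 2 = 1 := fun hx ne =>
    mul_left_cancel₀ (sub_ne_zero.2 ne) (by linear_combination ha - hx)
  have k' : ∀ {x : κ}, x ^ 3 = x → a ≠ x → b ≠ x → a + b + x = 0 := fun hx ax bx =>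
    mul_left_cancel₀ (sub_ne_zero.2 bx) (by linear_combination k hb ab - k hx ax)
  linear_combination k' hc ac bc - k' hd ad bd

theorem f_inj (hF : IsF q F) {R : V.toAffine.Point} (e : F R = 0) : R = 0 := by
  rcases R with _ | ⟨x, y, h⟩
  · rfl
  · exact absurd ((hF x y h).choose_spec.symm.trans e) (Point.some_ne_zero _)

theorem xe {R S : V.toAffine.Point} (a : R ≠ 0) (b : S ≠ 0) (e : xc R = xc S) : R = S ∨ R = -S := by
  rcases R with _ | ⟨x, y, h⟩
  · exact absurd rfl a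
  rcases S with _ | ⟨x', y', h'⟩
  · exact absurd rfl b
  exact Point.X_eq_iff.1 e

theorem fin_ord (hq : 1 < q) (hF : IsF q F) {R : V.toAffine.Point} (e : F R = R) :
    IsOfFinAddOrder R := by
  have Z : {x : κ | x ^ q = x}.Finite := (finite_setOf_isRoot
    (FiniteField.X_pow_card_sub_X_ne_zero κ hq)).subset fun x k => by simpa [sub_eq_zero] using k
  let f : V.toAffine.Point → Option (κ × κ) := fun Q => match Q with
    | .zero => none
    | .some x y _ => some (x, y)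
  have : ((F - AddMonoidHom.id _).ker : Set V.toAffine.Point).Finite := by
    refine Set.Finite.of_finite_image (f := f) ((((Z.prod Z).image some).insert none).subset ?_) ?_
    · rintro _ ⟨_ | ⟨x, y, h⟩, m, rfl⟩
      · exact .inl rfl
      · exact .inr ⟨(x, y), Point.some.inj ((hF x y h).choose_spec.symm.trans (sub_eq_zero.1 m)), rfl⟩
    · rintro (_ | ⟨x, y, h⟩) - (_ | ⟨x', y', h'⟩) - c
      · rfl
      · cases c
      · cases c
      · cases c; rfl
  have := this.to_subtype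
  exact (F - AddMonoidHom.id _).ker.subtype.isOfFinAddOrder
    (isOfFinAddOrder_of_finite (⟨R, sub_eq_zero.2 e⟩ : (F - AddMonoidHom.id _).ker))

/-- **the three-torsion in characteristic three has rank at most one** -/
theorem rk1 (hF : IsF 3 F) {b : ℤ} (k : ∀ R, (1 : ℤ) • F (F R) + b • F R + (3 : ℤ) • R = 0)
    (R S : V.toAffine.Point) (r : 3 • R = 0) (s : 3 • S = 0) (s0 : S ≠ 0) : ∃ i : ℤ, R = i • S := by
  have fx : ∀ Q : V.toAffine.Point, Q ≠ 0 → 3 • Q = 0 → xc Q ^ 3 = xc Q := fun Q a c => by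
    have e : F Q + b • Q = 0 := f_inj hF (by
      rw [map_add, map_zsmul]; linear_combination (norm := module) k Q - c)
    have x : xc (F Q) = xc Q ^ 3 ∧ xc (-Q) = xc Q := by
      rcases Q with _ | ⟨x, y, h⟩
      · exact absurd rfl a
      · exact ⟨congrArg xc (hF x y h).choose_spec, rfl⟩
    obtain ⟨j, rfl | rfl | rfl⟩ : ∃ j, b = 3 * j ∨ b = 3 * j + 1 ∨ b = 3 * j - 1 :=
      ⟨(b + 1) / 3, by omega⟩
    · exact (a (f_inj hF (by linear_combination (norm := module) e - j • c))).elim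
    · rw [← x.1, ← x.2, show F Q = -Q by linear_combination (norm := module) e - j • c]
    · rw [← x.1, show F Q = Q by linear_combination (norm := module) e - j • c]
  by_contra! n
  have r0 : R ≠ 0 := fun e => n 0 (by rw [e, zero_zsmul])
  have a0 : R + S ≠ 0 := fun e => n (-1) (by linear_combination (norm := module) e)
  have b0 : R - S ≠ 0 := fun e => n 1 (by linear_combination (norm := module) e)
  refine (xe a0 b0 (four (fx S s0 s) (fx R r0 r) (fx _ a0 (by rw [nsmul_add, r, s, add_zero]))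
    (fx _ b0 (by rw [nsmul_sub, r, s, sub_zero])) (fun e => ?_) (fun e => ?_) (fun e => ?_)
    (fun e => ?_) fun e => ?_)).elim (fun e => s0 ?_) fun e => r0 ?_
  · exact (xe s0 r0 e).elim (fun e => b0 (by linear_combination (norm := module) -e))
      fun e => a0 (by linear_combination (norm := module) e)
  · exact (xe s0 a0 e).elim (fun e => r0 (by linear_combination (norm := module) -e))
      fun e => b0 (by linear_combination (norm := module) e - s)
  · exact (xe s0 b0 e).elim (fun e => a0 (by linear_combination (norm := module) s - e))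
      fun e => r0 (by linear_combination (norm := module) e)
  · exact (xe r0 a0 e).elim (fun e => s0 (by linear_combination (norm := module) -e))
      fun e => b0 (by linear_combination (norm := module) r - e)
  · exact (xe r0 b0 e).elim (fun e => s0 (by linear_combination (norm := module) e))
      fun e => a0 (by linear_combination (norm := module) r - e)
  · linear_combination (norm := module) s - e
  · linear_combination (norm := module) r - e

end red

variable {W : WeierstrassCurve ℤ} {p : ℕ} {P : Ideal (𝓞 Qb)} {O : ValuationSubring Qb} {A B : ℤ}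

theorem lv_of (o : Ov p P) (hO : Vr P O) : Lv P p O := by
  have hP := o.2.1
  have p0 : (p : Qb) ≠ 0 := by exact_mod_cast o.1.ne_zero
  refine ⟨o.1, fun n => ?_, fun a ha k => ?_, fun g e he h4 z => ⟨?_, fun hx =>
    (hO.zp _).1 (Qx.Fg.frob hP h4 ((hO.ip z).2 hx))⟩⟩
  · rw [← Qx.Fg.int_mem hP o.1 o.2.2, ← hO.mem hP]; rfl
  · have := (hO.ip _).1 (Qx.unv p P o.1 hP o.2.2 a (fun g hg => ha ⟨g, hg⟩) ((hO.zp _).2 k))
    rwa [map_div₀, div_le_one₀ (zero_lt_iff.2 (O.valuation.ne_zero_iff.2 p0))] at this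
  · have d := Qx.Fg.Dc.of hP he h4
    rw [← hO.ip, ← hO.ip]
    exact ⟨fun k => by simpa using d.inv.ip k, d.ip⟩

theorem aff (H : Lv P p O) {α : Qb} (α0 : α ≠ 0) (β : Qb) : ∃ N : ℕ, ∀ x,
    1 < O.valuation p ^ N * O.valuation x → 1 < O.valuation (α * x + β) := by
  obtain ⟨N, a⟩ := arch H α α0
  by_cases b0 : β = 0
  · exact ⟨N, fun x k => by
      rw [b0, add_zero, map_mul]; exact k.trans_le (mul_le_mul_left a _)⟩
  obtain ⟨M, b⟩ := arch H (α / β) (div_ne_zero α0 b0)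
  have b1 := O.valuation.pos_iff.2 b0
  rw [map_div₀, le_div_iff₀ b1] at b
  refine ⟨N + M, fun x k => ?_⟩
  rw [O.valuation.map_add_eq_of_lt_left, map_mul]
  · exact k.trans_le (mul_le_mul_left
      ((pow_le_pow_right_of_le_one' H.p1.le (N.le_add_right M)).trans a) _)
  · rw [map_mul]
    refine lt_of_lt_of_le ?_ (mul_le_mul_left b _)
    rw [mul_right_comm]
    exact lt_mul_of_one_lt_left b1 (k.trans_le (mul_le_mul_left
      (pow_le_pow_right_of_le_one' H.p1.le (M.le_add_left N)) _))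

theorem ex_fix (φ : GQ) (y : Pt A B) : ∃ f, f ≠ 0 ∧ ga (φ ^ f) y = y := by
  let U : Subgroup GQ :=
    { carrier := {g | ga g y = y}
      mul_mem' := fun {a b} p q => (P004M.TE.ga_mul a b y).trans (by rw [q, p])
      one_mem' := P004M.TE.ga_one y
      inv_mem' := fun {a} p => by
        show ga a⁻¹ y = y
        conv_lhs => rw [← show ga a y = y from p]
        rw [← P004M.TE.ga_mul, inv_mul_cancel, P004M.TE.ga_one] }
  have o : IsOpen (U : Set GQ) := U.isOpen_of_mem_nhds (g := 1)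
    ((P004M.TE.ev_ga 1 y).mono fun g e => e.trans (P004M.TE.ga_one y))
  have := Subgroup.quotient_finite_of_isOpen U o
  obtain ⟨m, h1, -, h2⟩ := U.exists_pow_mem_of_index_ne_zero Subgroup.index_ne_zero_of_finite φ
  exact ⟨m, h1.ne', h2⟩

variable {u r s t : ℚ} (h : Md (Wq W) A B u r s t) (o : Ov p P)
include h o

/-- a bounded multiple of an unramified point of the kernel is deep on the short model -/
theorem deep (hO : Vr P O) {κ : ℕ} (κ0 : κ ≠ 0) : ∃ c : ℕ, ∀ Q ∈ Ug (Wq W) P,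
    KerV O.valuation Q → Fk P κ (iso h Qb (p ^ c • Q)) := by
  have H := lv_of o hO
  have k0 : (κ : Qb) ≠ 0 := Nat.cast_ne_zero.2 κ0
  obtain ⟨N, hN⟩ := aff H (α := κ ^ 2 * algebraMap ℚ Qb u ^ 2) (mul_ne_zero (pow_ne_zero 2 k0)
    (pow_ne_zero 2 ((_root_.map_ne_zero _).2 h.ne))) (κ ^ 2 * algebraMap ℚ Qb r)
  refine ⟨N + 1, fun Q m k => (hO.fk κ0 _).2 ?_⟩
  have a := k_lt H k m
  have b := (v_pow (cf W O) ((E1 (cf W O)).nsmul_mem k p) a N).trans_lt
    (mul_lt_of_lt_one_right (pow_pos (O.valuation.pos_iff.2 H.p0) N) (a.trans H.p1))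
  have c : KerV O.valuation (p ^ (N + 1) • Q) := (E1 (cf W O)).nsmul_mem k _
  rw [← mul_smul, ← pow_succ] at b
  generalize p ^ (N + 1) • Q = R at b c
  rcases R with _ | ⟨x, y, n⟩
  · exact ⟨trivial, (map_zero O.valuation).trans_le zero_le'⟩
  obtain ⟨d, e⟩ := vx (cf W O) c (Point.some_ne_zero n)
  have i := hN x (by
    rw [← e, mul_comm, sq]
    exact mul_lt_mul_of_pos_right ((mul_le_of_le_one_right' (zf_lt (cf W O) c).le).trans_lt b)
      (zero_lt_one.trans d))
  obtain ⟨n', e'⟩ := iso_some h n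
  rw [mul_assoc, ← mul_add, map_mul, map_pow] at i
  have j := i.trans_le (mul_le_of_le_one_left' (pow_le_one₀ zero_le' (Qx.Fg.vn κ)))
  rw [e']
  refine ⟨not_le.2 j, le_of_lt (lt_of_pow_lt_pow_left₀ 2 zero_le' ?_)⟩
  rw [← (Qx.Fg.bas n' j).2.2, mul_comm (O.valuation κ ^ 2)] at i
  exact lt_of_mul_lt_mul_left i zero_le'

/-- **the unramified points modulo the tower** -/
theorem hlv (h3 : p = 3) {R : ℕ → Pt A B} (T : Tr p R) (f : ∀ n g, Inert P g → ga g (R n) = R n)
    (hg : ¬ (p : ℤ) ∣ W.Δ) {b : ℤ} (q : Fq W p 1 b p) {m : ℕ} (z : R m ≠ 0) {κ : ℕ} (κ0 : κ ≠ 0) :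
    ∃ c : ℕ, ∀ y : Pt A B, Ur P y → ∃ (n k : ℕ) (i : ℤ), ¬ p ∣ n ∧
      Fk P κ ((p ^ c * n) • y - p ^ c • i • R k) := by
  obtain ⟨O, hO⟩ := Qx.Fg.ex_O o.2.1 (Qx.Fg.ne_bot o.1.ne_zero o.2.2)
  have H := lv_of o hO
  obtain ⟨c, hc⟩ := deep h o hO κ0
  obtain ⟨κ', _, _, _, rd, i, K⟩ := H.ex_rd W
  have : Fact p.Prime := ⟨H.hp⟩
  have tp : ∀ Q, Q ∈ E0 (cf W O) := fun _ => top1 (cf W O) (eΔ.1 ▸ H.one hg) ▸ trivial
  let ρ := rd.comp ((AddMonoidHom.id _).codRestrict _ tp)
  have T' := T.map (iso h Qb).symm.toAddMonoidHom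
  have U := fun n => ug_iso h (f n)
  have C := cyc (T'.map ρ) (m := m + 1) (fun e => z (by
    have := k_tor H (i _ e) (U _) (T'.tor _)
    simpa using (T'.2 m).symm.trans this)) (by
    have f : IsF p (Point.map (W' := W) (frobenius κ' p).toIntAlgHom) := fun x y h => ⟨_, rfl⟩
    have := q κ' _ f
    subst h3
    exact rk1 f this)
  obtain ⟨φ, k⟩ := P022D.W.exists_phi o.1 o.2.1 o.2.2
  refine ⟨c, fun y a => ?_⟩
  obtain ⟨d, d0, e⟩ := ex_fix φ y
  have F : IsF (p ^ d) (Point.map (W' := W) (iterateFrobenius κ' p d).toIntAlgHom) :=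
    fun x y h => ⟨_, rfl⟩
  obtain ⟨m1, e1⟩ := K (φ ^ d) (p ^ d) (pow_ne_zero _ o.1.ne_zero) (Qx.Fg.frob_pow k d) _ F
    ⟨(iso h Qb).symm y, tp _⟩
  obtain ⟨l, l0, e2⟩ := (fin_ord (Nat.one_lt_pow d0 o.1.one_lt) F (e1.symm.trans (congrArg rd
    (Subtype.ext ((iso h Qb).injective (by simp [iso_act, e])))))).exists_nsmul_eq_zero
  obtain ⟨j, n, n0, rfl⟩ := Nat.exists_eq_pow_mul_and_not_dvd l0.ne' p o.1.ne_one
  obtain ⟨j', w, e3⟩ := C j (ρ (n • (iso h Qb).symm y)) (by rw [map_nsmul, ← mul_smul]; exact e2)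
  refine ⟨n, j', w, n0, ?_⟩
  have := hc (n • (iso h Qb).symm y - w • (iso h Qb).symm (R j'))
    (sub_mem (nsmul_mem (ug_iso h a) n) (zsmul_mem (U _) w)) (i ⟨_, tp _⟩ (by
      refine (map_sub ρ _ _).trans ?_
      rw [e3, map_zsmul]
      exact sub_self _))
  simpa only [map_nsmul, map_sub, map_zsmul, AddEquiv.apply_symm_apply, nsmul_sub, ← mul_smul]
    using this

end Vale.Agent.P014Y.F.Sp
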