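import Vale.Agent.P014Y.F.St
import Vale.Agent.P014Y.F.Sp.Hlv
import Vale.Agent.P014U.Gt.Mt
import Vale.Agent.P014T.Lh.Ent
import Vale.Agent.P022.H20.Frob

/-! # P014Y, frame: the rows SPL and LGC -/

set_option linter.all false

open scoped Classical
open WeierstrassCurve NumberField Matrix

noncomputable section

namespace Vale.Agent.P014Y.F.Sp

open Vale.Agent.P014T Vale.Agent.P014T.Lc Vale.Agent.P014T.Sm P014U P027M.K
open Vale.Agent.P014T.Gt (Fq ex_fq Wc Wc_md Wc_nd)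
open Vale.Agent.P014U.Gt (Tr mt_vec fix_cp gd)
open Vale.Agent.P004M.TE (Qb GQ Pt ga)
open Vale.Agent.P022E.GW (Ov Fb)
open Vale.Agent.P027M.S (Inert)
open Vale.Agent.P014 (GlobalMinimal IsHasseWeil)
open P014U.X4M.TE (mt rho Tm bs cp_rho)

theorem ex_md {A B : ℤ} (h : 4 * A ^ 3 + 27 * B ^ 2 ≠ 0) : ∃ (W : WeierstrassCurve ℤ) (u r s t : ℚ),
    Md (Wq W) A B u r s t ∧ W.Δ ≠ 0 ∧ GlobalMinimal (Wq W) := by
  obtain ⟨D, hm⟩ := ex_min (⟨0, 0, 0, A, B⟩ : WeierstrassCurve ℚ)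
  obtain ⟨W, e⟩ := Lc.ex_int hm.1
  have k : Md (Wq W) A B D.u D.r D.s D.t := by
    have := Vc.ch_of D (⟨0, 0, 0, A, B⟩ : WeierstrassCurve ℚ)
    rwa [e] at this
  refine ⟨W, _, _, _, _, k, fun z => hq h ?_, by rwa [e] at hm⟩
  have := Md.disc k
  rw [map_Δ, z, map_zero, mul_zero] at this
  linear_combination -this / 16

variable [Pp]

theorem tower {e : Crv} {x : Tm (e.A : ℚ) (e.B : ℚ)}
    (h : e.Iv pp ((bs (hq e.par.disc)).equivFun x)) : x ≠ 0 ∧ Tr pp (fun n => TM.cp n x) ∧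
      (∀ n g, Inert (e.P pp) g → ga g (TM.cp n x) = TM.cp n x) ∧ ∃ m, TM.cp m x ≠ 0 := by
  have x0 : x ≠ 0 := fun z => h.1 (by rw [z, map_zero])
  refine ⟨x0, ⟨TM.cp_zero x, TM.cp_succ x⟩, fun n g k => fix_cp _ h.2 g k n, by_contra fun c => ?_⟩
  push Not at c
  exact x0 (TM.ext fun r => by rw [c, map_zero])

/-- **row SPL** -/
theorem spl (h3 : pp = 3) : SPL := by
  intro e ⟨v, h⟩ κ hκ
  obtain ⟨x, rfl⟩ := (bs (hq e.par.disc)).equivFun.surjective v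
  obtain ⟨-, T, f, m, z⟩ := tower h
  obtain ⟨W, u, r, s, t, k, d, hm⟩ := ex_md e.par.disc
  have o := e.ov pp e.pm
  have hg := good k o T f d hm z
  obtain ⟨c, q⟩ := ex_fq pp_prime pp_ne_two hg
  obtain ⟨u, r, s, t, k⟩ := Wc_md k c
  obtain ⟨c₀, H⟩ := hlv k o h3 T f (Wc_nd pp_prime pp_ne_two c hg) q z hκ
  refine ⟨c₀, fun y a => ?_⟩
  obtain ⟨n, j, i, b, d⟩ := H y a
  exact ⟨n, j, _, b, by rw [smul_comm, smul_comm (pp ^ j), T.tor, zsmul_zero, nsmul_zero],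
    fun g m => by rw [map_nsmul, map_zsmul, f j g m], d⟩

/-- **row LGC** -/
theorem lgc (ent : ∀ (E : WeierstrassCurve ℚ) [E.IsElliptic], ∃ L, IsHasseWeil E L) : LGC := by
  intro e v φ α h hφ a
  obtain ⟨x, rfl⟩ := (bs (hq e.par.disc)).equivFun.surjective v
  obtain ⟨x0, T, f, m, z⟩ := tower h
  obtain ⟨W, u, r, s, t, k, d, hm⟩ := ex_md e.par.disc
  have o := e.ov pp e.pm
  have hg := good k o T f d hm z
  have : (Wq W).IsElliptic := ⟨by simpa using d⟩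
  obtain ⟨L, hL⟩ := ent (Wq W)
  have lf : ∀ {l : ℕ}, l.Prime → ¬ (l : ℤ) ∣ W.Δ → (Wq W).LFunction l = l + 1 - np W l :=
    fun hl g => by rw [(lf_all W d hm hl).1, ep, if_neg g]
  obtain ⟨S, -, -, ht⟩ := Lk.at_fin k e.rn ((e.S.toFinset ∪ W.Δ.natAbs.primeFactors).finite_toSet.subset
    fun l ⟨hl, ne⟩ => by_contra fun c => ne (by
      rw [Finset.coe_union, Set.mem_union, not_or, Finset.mem_coe, Finset.mem_coe, List.mem_toFinset,
        Nat.mem_primeFactors_of_ne_zero (Int.natAbs_ne_zero.2 d), not_and, ← Int.natCast_dvd] at c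
      obtain ⟨g, Q, b⟩ := P022.H20.exists_isFrob hl
      have := (gd (hq e.par.disc) k (fun i : l = pp => c.1 (i ▸ e.pm)) ⟨hl, b.1, b.2.1⟩ (c.2 hl)).2 g b.2.2
      rw [(e.bad l hl c.1).2.2 g ⟨Q, b⟩, Int.cast_inj] at this
      rw [← Lk.lf_md k, lf hl (c.2 hl), this]))
  obtain ⟨n, a2⟩ := Lh.lg_good e.rn ht hL pp_prime hg
  obtain ⟨c, q⟩ := ex_fq pp_prime pp_ne_two hg
  obtain ⟨u, r, s, t, k⟩ := Wc_md k c
  have b : rho _ _ φ x = α • x := (bs (hq e.par.disc)).equivFun.injective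
    ((mt_vec _ φ x).symm.trans (a.trans (map_smul _ _ _).symm))
  have i : (α ^ 2 + (np W pp - pp - 1 : ℤ) * α + (pp : ℤ)) • x = 0 := TM.ext fun i => by
    have := eqn k o T f (Wc_nd pp_prime pp_ne_two c hg) q hφ i
    simp only [← cp_rho, b, map_smul] at this
    rw [map_zero, add_smul, add_smul, sq, mul_smul, mul_smul, Int.cast_smul_eq_zsmul,
      Int.cast_smul_eq_zsmul, map_add, map_add, map_zsmul, map_zsmul, this]
  rw [if_neg n, a2, lf pp_prime hg]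
  have := (smul_eq_zero.1 i).resolve_right x0
  push_cast at this ⊢
  linear_combination this

end Vale.Agent.P014Y.F.Sp
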