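import Vale.Agent.P014U.Gt.Lv

/-! # P014Y, frame: unramified towers of `p`-power torsion at `p` force good reduction -/

set_option linter.all false

open scoped Classical
open WeierstrassCurve WeierstrassCurve.Affine P179W NumberField

noncomputable section

namespace Vale.Agent.P014Y.F.Sp

open Vale.Agent.P014T.Lc Vale.Agent.P014T.Vc Vale.Agent.P014T.Sm Vale.Agent.P004F
open Vale.Agent.P014T.Gt (IsF Fq)
open Vale.Agent.P014U.Gt hiding units ex_it
open Vale.Agent.P004M.TE (Qb GQ Pt ga)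
open Vale.Agent.P022E.GW (Ov Fb)
open Vale.Agent.P027M.S (Inert)
open Vale.Agent.P014 (act GlobalMinimal Pbar)

section pts

variable {K Γ : Type} [Field K] [LinearOrderedCommGroupWithZero Γ] {v : Valuation K Γ}
  {V W : WeierstrassCurve K} {u r s t w : K} (hc : CoeffIn V {z | v z ≤ 1})
include hc

theorem units {x y : K} {h : V.toAffine.Nonsingular x y} (m : Point.some x y h ∈ E0 hc)
    (a : v x ≤ 1) (h2 : ¬ KerV v (2 • Point.some x y h)) (h3 : ¬ KerV v (3 • Point.some x y h)) :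
    v (psi V x y) = 1 ∧ ∃ l, v l ≤ 1 ∧
      l * psi V x y = phi V x y ∧ v (V.toAffine.addX x x l - x) = 1 := by
  obtain ⟨l, h', i, e2, a', -, hk⟩ := sl hc h h a a (two_nsmul (Point.some x y h) ▸ h2)
  replace hk : l * psi V x y = phi V x y := by simp only [phi, psi]; linear_combination hk
  obtain ⟨l', -, i', -, -, hl, -⟩ := sl hc h h' a a' (by
    rw [← e2, ← two_nsmul, ← succ_nsmul']; exact h3)
  have p : v (psi V x y) = 1 := by
    have y1 := y_int hc h.1 a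
    have p1 : v (psi V x y) ≤ 1 := by
      rw [psi, two_mul]
      exact v.map_add_le (v.map_add_le (v.map_add_le y1 y1) (val_mul_le_one hc.1 a)) hc.2.2.1
    refine p1.antisymm (not_lt.1 fun c => ?_)
    rcases m with m | m | m
    exacts [m a, m (by rw [← hk, map_mul]; exact (mul_le_of_le_one_left' i).trans_lt c), m c]
  refine ⟨p, l, i, hk, (v.map_sub_le a' a).antisymm ?_⟩
  rw [← p, show psi V x y = -(l' + V.a₁ + l) * (V.toAffine.addX x x l - x) by
    rw [addY, negY, negAddY] at hl; rw [psi]; linear_combination hl, map_mul, v.map_neg]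
  exact mul_le_of_le_one_left' (v.map_add_le (v.map_add_le i' hc.1) i)

/-- an unramified point gives an unramified change of variables -/
theorem ex_it {U : Subfield K} (un : ∀ a ∈ U, v a < 1 → v a ≤ v w) (w0 : w ≠ 0)
    (hU : CoeffIn W U) (h : Ch V W u r s t) (hu : v u < 1) {Q : V.toAffine.Point} (m : Q ∈ E0 hc)
    (h1 : ¬ KerV v Q) (h2 : ¬ KerV v (2 • Q)) (h3 : ¬ KerV v (3 • Q))
    (o : OnSet U (vm (RingHom.id K) h Q)) : ∃ r ∈ U, ∃ s ∈ U, ∃ t ∈ U, It v W w r s t := by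
  rcases Q with _ | ⟨x, y, k⟩
  · exact (h1 trivial).elim
  have a : v x ≤ 1 := not_not.1 h1
  obtain ⟨p, l, i, hk, q⟩ := units hc m a h2 h3
  obtain ⟨o1, o2⟩ : u ^ 2 * x + r ∈ U ∧ u ^ 3 * y + u ^ 2 * s * x + t ∈ U := o
  obtain ⟨c1, c2, c3, c4, -⟩ := hU
  change _ ∈ U at c1 c2 c3 c4
  have u0 := h.ne
  have p0 : psi V x y ≠ 0 := fun c => by simp [c] at p
  have m1 : u ^ 3 * psi V x y ∈ U := by
    rw [psi, ← h.dY]; apply_rules [add_mem, mul_mem, ofNat_mem]
  have m2 : u * l + s ∈ U := by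
    have : (u * l + s) * (u ^ 3 * psi V x y) ∈ U := by
      rw [show _ * _ = phi W (u ^ 2 * x + r) (u ^ 3 * y + u ^ 2 * s * x + t) by
        simp only [phi, psi] at hk ⊢; linear_combination h.dX x y + u ^ 4 * hk, phi]
      apply_rules [add_mem, sub_mem, mul_mem, pow_mem, ofNat_mem]
    simpa only [mul_div_cancel_right₀ _ (mul_ne_zero (pow_ne_zero 3 u0) p0)] using U.div_mem this m1
  have m3 : u ^ 2 * (V.toAffine.addX x x l - x) ∈ U := by
    rw [show _ * _ = W.toAffine.addX (u ^ 2 * x + r) (u ^ 2 * x + r) (u * l + s) - (u ^ 2 * x + r) by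
      rw [h.addX]; ring, addX]
    apply_rules [add_mem, sub_mem, mul_mem, pow_mem]
  have := un _ (U.div_mem m1 m3)
  rw [map_div₀, map_mul, map_mul, p, q, mul_one, mul_one, ← map_div₀,
    show u ^ 3 / u ^ 2 = u by field_simp] at this
  have g : ∀ (i : ℕ) {z : K}, v z ≤ 1 → v (u ^ i * z) ≤ v u ^ i := fun i z a => by
    rw [map_mul, map_pow]; exact mul_le_of_le_one_right' a
  refine ⟨_, o1, _, m2, _, o2, It.scale ((It.iff ⟨V, hc, h⟩).2 ⟨?_, ?_, ?_⟩) w0 (this hu)⟩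
  · simpa using g 2 a
  · simpa using g 1 i
  · rw [show u ^ 3 * y + u ^ 2 * s * x + t - t - s * (u ^ 2 * x + r - r) = u ^ 3 * y by ring]
    exact g 3 (y_int hc k.1 a)

theorem tor_lt {p : ℕ} (n : ℕ) : ∀ {Q : V.toAffine.Point}, KerV v Q → v (zf Q) < v p →
    p ^ n • Q = 0 → Q = 0 := by
  induction n with
  | zero => exact fun _ _ e => by simpa using e
  | succ n ih =>
    intro Q h k e
    have := v_nsmul hc h k
    rw [ih ((E1 hc).nsmul_mem h p) (this ▸ mul_lt_of_lt_one_right (zero_le'.trans_lt k)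
      (zf_lt hc h)) (by rw [← mul_smul, ← pow_succ, e]), zf_zero, map_zero, eq_comm, mul_eq_zero,
      or_iff_right (zero_le'.trans_lt k).ne', _root_.map_eq_zero] at this
    exact zf_eq_zero hc h this

theorem z_le {p : ℕ} {Q : V.toAffine.Point} (h : KerV v Q) {M : Γ} (a : v p ≤ M)
    (b : v (zf Q) ≤ M) : v (zf (p • Q)) ≤ M * v (zf Q) := by
  rw [← sub_add_cancel (zf (p • Q)) (p * zf Q)]
  exact v.map_add_le ((nsmul_le hc h p).trans (sq (v (zf Q)) ▸ mul_le_mul_left b _))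
    ((map_mul v _ _).trans_le (mul_le_mul_left a _))

theorem vx {Q : V.toAffine.Point} (h : KerV v Q) (a : Q ≠ 0) :
    1 < v (xc Q) ∧ v (xc Q) * v (zf Q) ^ 2 = 1 := by
  rcases Q with _ | ⟨x, y, h'⟩
  · exact absurd rfl a
  · exact ⟨not_le.1 h, (bas hc h'.1 (not_le.1 h)).2.2.1⟩

/-- a tower does not stay in the kernel of the reduction -/
theorem out {U : Subfield K} {p : ℕ} (un : ∀ a ∈ U, v a < 1 → v a ≤ v p) (p1 : v p < 1)
    (ar : ∀ a : K, a ≠ 0 → ∃ N : ℕ, v p ^ N ≤ v a) (h : Ch V W u r s t) {Q : ℕ → V.toAffine.Point}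
    (T : ∀ n, p • Q (n + 1) = Q n) (z : Q 0 ≠ 0) (o : ∀ n, OnSet U (vm (RingHom.id K) h (Q n))) :
    ∃ n, ¬ KerV v (Q n) := by
  by_contra! k
  have n0 : ∀ n, Q n ≠ 0 := fun n => by
    induction n with
    | zero => exact z
    | succ n ih => exact fun e => ih (by rw [← T, e, nsmul_zero])
  have x1 := fun n => vx hc (k n) (n0 n)
  have x0 := fun n => zero_lt_one.trans (x1 n).1
  have d : ∀ n, v (xc (Q (n + 1))) < v (xc (Q n)) := fun n => not_le.1 fun c => by
    have z0 : 0 < v (zf (Q (n + 1))) := v.pos_iff.2 (mt (zf_eq_zero hc (k _)) (n0 _))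
    have := (z_le hc (k (n + 1)) (le_max_left (v p) _) (le_max_right _ _)).trans_lt
      (mul_lt_of_lt_one_left z0 (max_lt p1 (zf_lt hc (k _))))
    rw [T] at this
    exact ((mul_le_mul_left c _).trans_lt (mul_lt_mul_of_pos_left
      (pow_lt_pow_left₀ this zero_le' two_ne_zero) (x0 _))).ne ((x1 n).2.trans (x1 _).2.symm)
  have m : ∀ n, u ^ 2 * xc (Q n) + r ∈ U := fun n => by
    have a := o n
    have b := n0 n
    generalize Q n = R at a b
    rcases R with _ | ⟨x, y, h'⟩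
    exacts [absurd rfl b, a.1]
  have u0 : 0 < v u ^ 2 := pow_pos (v.pos_iff.2 h.ne) 2
  have e : ∀ n, v (u ^ 2 * xc (Q n) + r - (u ^ 2 * xc (Q (n + 1)) + r)) =
      v u ^ 2 * v (xc (Q n)) := fun n => by
    rw [add_sub_add_right_eq_sub, ← mul_sub, map_mul, map_pow, v.map_sub_eq_of_lt_left (d n)]
  have b : ∀ n, v (xc (Q n)) ≤ v p ^ n * v (xc (Q 0)) := fun n => by
    induction n with
    | zero => simp
    | succ n ih =>
      have := un _ (U.div_mem (U.sub_mem (m (n + 1)) (m (n + 2))) (U.sub_mem (m n) (m (n + 1))))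
      rw [map_div₀, e, e, mul_div_mul_left _ _ u0.ne', div_lt_one₀ (x0 n), div_le_iff₀ (x0 n)] at this
      rw [pow_succ', mul_assoc]
      exact (this (d n)).trans (mul_le_mul_right ih _)
  obtain ⟨N, hN⟩ := ar (xc (Q 0))⁻¹ (inv_ne_zero (v.pos_iff.1 (x0 0)))
  rw [map_inv₀, ← one_div, le_div_iff₀ (x0 0)] at hN
  exact ((x1 N).1.trans_le (b N)).not_ge hN

end pts

variable {W : WeierstrassCurve ℤ} {p : ℕ} {P : Ideal (𝓞 Qb)} {O : ValuationSubring Qb}

theorem act_mul {E : WeierstrassCurve ℚ} (g h : GQ) (Q : Pbar E) :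
    act E (g * h) Q = act E g (act E h Q) := by
  rcases Q with _ | ⟨x, y, k⟩ <;> rfl

/-- the unramified points -/
def Ug (E : WeierstrassCurve ℚ) (P : Ideal (𝓞 Qb)) : AddSubgroup (Pbar E) where
  carrier := {Q | ∀ g, Inert P g → act E g Q = Q}
  add_mem' := fun a b g e => by rw [map_add, a g e, b g e]
  zero_mem' := fun g _ => map_zero _
  neg_mem' := fun a g e => by rw [map_neg, a g e]

theorem ug_fb {E : WeierstrassCurve ℚ} (o : Ov p P) {φ : GQ} (k : Fb p P φ) {Q : Pbar E}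
    (u : Q ∈ Ug E P) : act E φ Q ∈ Ug E P := fun g i => by
  rw [← act_mul, show g * φ = φ * (φ⁻¹ * g * φ) by group, act_mul, u _ fun x => ?_]
  rw [← Qx.Fg.Dc.of o.2.1 o.1.ne_zero k, smul_sub, ← mul_smul, show φ * (φ⁻¹ * g * φ) = g * φ by
    group, mul_smul]
  exact i _

theorem ug_on {Q : Pbar (Wq W)} (u : Q ∈ Ug (Wq W) P) : OnSet (UU P) Q :=
  Lv.on (R := fun _ => Q) (fun g i _ => u g i) 0

variable (H : Lv P p O)
include H

theorem arch (a : Qb) (a0 : a ≠ 0) : ∃ N : ℕ, O.valuation p ^ N ≤ O.valuation a := by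
  obtain ⟨D, D0, i⟩ := ((IsFractionRing.isAlgebraic_iff ℤ ℚ Qb).2
    (Algebra.IsAlgebraic.isAlgebraic a⁻¹)).exists_integral_multiple
  have j : O.valuation (D • a⁻¹) ≤ 1 :=
    (Valuation.integer.integers O.valuation).mem_of_integral i.tower_top
  rw [zsmul_eq_mul, map_mul, map_inv₀, mul_inv_le_iff₀ (O.valuation.pos_iff.2 a0), one_mul] at j
  refine ⟨D.natAbs, le_trans (not_lt.1 fun c => ?_) j⟩
  have := Nat.le_of_dvd (Int.natAbs_pos.2 D0) (Int.natCast_dvd.1 (by exact_mod_cast H.dv _ _ c.le))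
  exact this.not_gt (Nat.lt_pow_self H.hp.one_lt)

theorem k_lt {Q : Pbar (Wq W)} (k : KerV O.valuation Q) (u : Q ∈ Ug (Wq W) P) :
    O.valuation (zf (p • Q)) < O.valuation p := by
  have a : zf Q ∈ UU P := by
    have := ug_on u
    rcases Q with _ | ⟨x, y, h⟩
    exacts [zero_mem _, div_mem (neg_mem this.1) this.2]
  exact (z_le (cf W O) k le_rfl (H.un _ a (zf_lt (cf W O) k))).trans_lt
    (mul_lt_of_lt_one_right (O.valuation.pos_iff.2 H.p0) (zf_lt (cf W O) k))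

theorem k_tor {Q : Pbar (Wq W)} (k : KerV O.valuation Q) (u : Q ∈ Ug (Wq W) P) {n : ℕ}
    (e : p ^ n • Q = 0) : p • Q = 0 :=
  tor_lt (cf W O) n ((E1 (cf W O)).nsmul_mem k p) (k_lt H k u) (by rw [smul_comm, e, nsmul_zero])

/-- **Frobenius on a tower with nonsingular reduction** -/
theorem frb (o : Ov p P) {R : ℕ → Pbar (Wq W)} (T : Tr p R) (u : ∀ n, R n ∈ Ug (Wq W) P)
    (m : ∀ n, R n ∈ E0 (cf W O)) {φ : GQ} (k : Fb p P φ) {a b c : ℤ} (q : Fq W p a b c) (n : ℕ) :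
    a • act _ φ (act _ φ (R n)) + b • act _ φ (R n) + c • R n = 0 := by
  obtain ⟨κ, _, _, _, rd, i, K⟩ := H.ex_rd W
  have : Fact p.Prime := ⟨H.hp⟩
  have f : IsF p (Point.map (W' := W) (frobenius κ p).toIntAlgHom) := fun x y h => ⟨_, rfl⟩
  obtain ⟨m1, e1⟩ := K φ p H.hp.ne_zero k _ f ⟨_, m (n + 1)⟩
  obtain ⟨m2, e2⟩ := K φ p H.hp.ne_zero k _ f ⟨_, m1⟩
  have := k_tor H (i (a • ⟨_, m2⟩ + b • ⟨_, m1⟩ + c • ⟨_, m (n + 1)⟩) (by
    rw [map_add, map_add, map_zsmul, map_zsmul, map_zsmul, e2, e1]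
    exact q κ _ f _)) (add_mem (add_mem (zsmul_mem (ug_fb o k (ug_fb o k (u _))) a)
      (zsmul_mem (ug_fb o k (u _)) b)) (zsmul_mem (u _) c)) (n := n + 1) (by
    change p ^ (n + 1) • (a • act _ φ (act _ φ (R (n + 1))) + b • act _ φ (R (n + 1)) +
      c • R (n + 1)) = 0
    simp only [nsmul_add, smul_comm (p ^ (n + 1)), ← map_nsmul, T.tor, map_zero, zsmul_zero,
      add_zero])
  change p • (a • act _ φ (act _ φ (R (n + 1))) + b • act _ φ (R (n + 1)) + c • R (n + 1)) = 0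
    at this
  simpa only [nsmul_add, smul_comm p, ← map_nsmul, T.2] using this

/-- **additive reduction** -/
theorem zero (o : Ov p P) (hΔ : W.Δ ≠ 0) (hm : GlobalMinimal (Wq W)) (hb : (p : ℤ) ∣ W.Δ)
    (c : (p : ℤ) ∣ W.c₄) {R : ℕ → Pbar (Wq W)} (T : Tr p R) (f : ∀ n, R n ∈ Ug (Wq W) P) (n : ℕ) :
    R n = 0 := by
  by_contra z
  obtain ⟨V, hc, u, r, s, t, h, -, a, b⟩ := H.st hΔ T (fun g i n => f n g i) hb
  choose Q m e using b
  have i := vm_inj (f := RingHom.id Qb) (V := V) h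
  have T' : Tr p Q := ⟨i (by rw [e, T.1, map_zero]), fun n => i (by rw [map_nsmul, e, e, T.2])⟩
  obtain ⟨j, hj⟩ := out hc H.un H.p1 (arch H) h (Q := fun j => Q (n + j)) (fun j => T'.2 _)
    (fun q => z (by rw [← e, show Q n = 0 from q, map_zero])) fun j => e _ ▸ ug_on (f _)
  have k1 : ¬ KerV O.valuation (Q (n + j + 1)) := fun q => hj (T'.2 _ ▸ (E1 hc).nsmul_mem q p)
  have k : ∀ i : ℕ, i.Prime → ¬ KerV O.valuation (i • Q (n + j + 1)) := fun i hi q => by
    by_cases d : i = p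
    · exact hj (by rwa [d, T'.2] at q)
    obtain ⟨x, y, w⟩ := (Nat.isCoprime_iff_coprime.2 ((Nat.coprime_primes hi H.hp).2 d)).pow_right
      (n := n + j + 1)
    have := (E1 hc).zsmul_mem q x
    rw [← natCast_zsmul, smul_smul, eq_sub_of_add_eq w, sub_smul, one_smul, mul_smul,
      ← Nat.cast_pow, natCast_zsmul, T'.tor, smul_zero, sub_zero] at this
    exact k1 this
  obtain ⟨r, a1, s, a2, t, a3, i⟩ := ex_it hc H.un H.p0 (cfu W _) h (a c) (m _) k1
    (k 2 Nat.prime_two) (k 3 Nat.prime_three) (e _ ▸ ug_on (f _))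
  obtain ⟨φ, q⟩ := P022D.W.exists_phi o.1 o.2.1 o.2.2
  obtain ⟨n, m, k, j⟩ := i.desc (cf W O) H.p1.le (φ : Qb →+* Qb)
    (fun a => (H.fr φ p H.hp.ne_zero q a).1.2) (by
      ext <;> simp [WeierstrassCurve.baseChange]) (map_natCast _ p) (H.ds q) a1 a2 a3
  exact H.nmin hΔ hm j

omit H

variable {A B : ℤ} {u r s t : ℚ} (h : Md (Wq W) A B u r s t) (o : Ov p P) {R : ℕ → Pt A B}
  (T : Tr p R) (f : ∀ n g, Inert P g → ga g (R n) = R n)
include h

theorem ug_iso {y : Pt A B} (k : ∀ g, Inert P g → ga g y = y) : (iso h Qb).symm y ∈ Ug (Wq W) P :=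
  fun g m => (iso h Qb).injective (by simp [iso_act, k g m])

include o T f

/-- **a nonzero tower forces good reduction** -/
theorem good (hΔ : W.Δ ≠ 0) (hm : GlobalMinimal (Wq W)) {n : ℕ} (z : R n ≠ 0) :
    ¬ (p : ℤ) ∣ W.Δ := fun hb => z (by
  obtain ⟨O, H⟩ := ex_lv o
  by_cases hc : (p : ℤ) ∣ W.c₄
  · simpa using zero H o hΔ hm hb hc (T.map (iso h Qb).symm.toAddMonoidHom)
      (fun n => ug_iso h (f n)) n
  have : Fact p.Prime := ⟨o.1⟩
  obtain ⟨x, y, S⟩ := Sg.ex_sing_p (W.map (Int.castRingHom (ZMod p)))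
    ((W.map_Δ _).trans ((ZMod.intCast_zmod_eq_zero_iff_dvd _ p).2 hb))
  obtain ⟨x, rfl⟩ := ZMod.intCast_surjective x
  obtain ⟨y, rfl⟩ := ZMod.intCast_surjective y
  obtain ⟨e, f', g⟩ := S
  simp only [map_a₁, map_a₂, map_a₃, map_a₄, map_a₆, eq_intCast] at e f' g
  obtain ⟨i, j⟩ := sf_inv (W := W) x 0 y
  obtain ⟨-, q⟩ := fq_nd (W := sf W x 0 y) (p := p) (by rw [sf]; push_cast; linear_combination g)
    (by rw [sf]; push_cast; linear_combination -f') (by rw [sf]; push_cast; linear_combination -e)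
    (j ▸ hc)
  obtain ⟨u, r, s, t, h⟩ := sf_md h x 0 y
  obtain ⟨φ, k⟩ := P022D.W.exists_phi o.1 o.2.1 o.2.2
  have T' := T.map (iso h Qb).symm.toAddMonoidHom
  have U := fun n => ug_iso h (f n)
  have F := frb H o T' U (H.e0 (i ▸ hΔ) T' (fun g m n => U n g m) (i ▸ hb) (j ▸ hc)) k q
  clear z
  induction n with
  | zero => exact T.1
  | succ n ih =>
    have := F (n + 1)
    rw [zero_zsmul, zero_add, one_zsmul, neg_zsmul, mul_smul, natCast_zsmul, ← map_nsmul, T.2, ih,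
      map_zero, zsmul_zero, neg_zero, add_zero] at this
    simpa using Point.map_injective _ (this.trans (map_zero _).symm))

/-- **the Frobenius equation on a tower** -/
theorem eqn (hg : ¬ (p : ℤ) ∣ W.Δ) {b : ℤ} (q : Fq W p 1 b p) {φ : GQ} (k : Fb p P φ) (n : ℕ) :
    ga φ (ga φ (R n)) + b • ga φ (R n) + (p : ℤ) • R n = 0 := by
  obtain ⟨O, H⟩ := ex_lv o
  have := congrArg (iso h Qb) (frb H o (T.map (iso h Qb).symm.toAddMonoidHom)
    (fun n => ug_iso h (f n)) (fun _ => top1 (cf W O) (eΔ.1 ▸ H.one hg) ▸ trivial) k q n)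
  simpa [iso_act] using this

end Vale.Agent.P014Y.F.Sp
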